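import Mathlib

/-!
P260, block G6: finite `p`-groups without a subgroup `(ℤ/p)²`.
-/

namespace Vale.Agent.P260.H704

variable {P : Type*} [Group P]

/-- no subgroup isomorphic to `(ℤ/q)²` -/
def NR2 (q : ℕ) (P : Type*) [Group P] : Prop :=
  ∀ a b : P, a ^ q = 1 → b ^ q = 1 → Commute a b → a ≠ 1 → b ∈ Subgroup.zpowers a

section basic

variable {p : ℕ} [Fact p.Prime]

/-- power of an element of `p`-power order by a number prime to `p` -/
theorem mem_zpowers_pow_of_not_dvd (hP : IsPGroup p P) (a : P) (m : ℤ) (hm : ¬ (p : ℤ) ∣ m) :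
    a ∈ Subgroup.zpowers (a ^ m) := by
  obtain ⟨k, hk⟩ := IsPGroup.iff_orderOf.mp hP a
  have hp : Prime (p : ℤ) := Nat.prime_iff_prime_int.mp (Fact.out : p.Prime)
  have hcop : IsCoprime m ((p : ℤ) ^ k) := by
    apply IsCoprime.pow_right
    rw [isCoprime_comm]
    exact (Irreducible.coprime_iff_not_dvd hp.irreducible).mpr hm
  obtain ⟨u, v, huv⟩ := hcop
  refine ⟨u, ?_⟩
  simp only
  rw [← zpow_mul]
  have h1 : a ^ ((p : ℤ) ^ k) = 1 := by
    have : a ^ (p ^ k) = 1 := by rw [← hk]; exact pow_orderOf_eq_one a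
    exact_mod_cast this
  calc a ^ (m * u) = a ^ (1 - v * (p : ℤ) ^ k) := by congr 1; linarith
    _ = a := by rw [zpow_sub, zpow_one, mul_comm v, zpow_mul, h1, one_zpow]; simp

/-- elements of order `p` in a cyclic `p`-subgroup -/
theorem exists_order_p (hP : IsPGroup p P) {a : P} (ha : a ≠ 1) :
    ∃ j : ℕ, (a ^ j) ^ p = 1 ∧ a ^ j ≠ 1 := by
  obtain ⟨k, hk⟩ := IsPGroup.iff_orderOf.mp hP a
  have hk0 : k ≠ 0 := by
    rintro rfl
    rw [pow_zero, orderOf_eq_one_iff] at hk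
    exact ha hk
  obtain ⟨l, rfl⟩ := Nat.exists_eq_succ_of_ne_zero hk0
  refine ⟨p ^ l, ?_, ?_⟩
  · rw [← pow_mul, ← pow_succ]
    have : a ^ (p ^ (l + 1)) = 1 := by rw [← Nat.succ_eq_add_one, ← hk]; exact pow_orderOf_eq_one a
    exact this
  · intro h
    have h1 := orderOf_dvd_of_pow_eq_one h
    rw [hk] at h1
    have h2 := (Nat.pow_dvd_pow_iff_le_right (Fact.out : p.Prime).one_lt).mp h1
    omega

/-- Under `NR2`, an element whose `p`-th power is trivial and which centralises `a ≠ 1` lies in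
`⟨a⟩`. -/
theorem mem_of_pow_eq_one (hP : IsPGroup p P) (h : NR2 p P) {a y : P} (ha : a ≠ 1)
    (hy : y ^ p = 1) (hc : Commute a y) : y ∈ Subgroup.zpowers a := by
  obtain ⟨j, h1, h2⟩ := exists_order_p hP ha
  have h3 := h (a ^ j) y h1 hy (hc.pow_left j) h2
  have h4 : Subgroup.zpowers (a ^ j) ≤ Subgroup.zpowers a := by
    rw [Subgroup.zpowers_le]
    exact Subgroup.pow_mem _ (Subgroup.mem_zpowers a) j
  exact h4 h3

/-- Step 1. -/
theorem mem_or_mem (hP : IsPGroup p P) (h : NR2 p P) {a x : P} (hc : Commute a x)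
    (hx : x ^ p ∈ Subgroup.zpowers a) : x ∈ Subgroup.zpowers a ∨ a ∈ Subgroup.zpowers x := by
  by_cases ha : a = 1
  · right
    rw [ha]
    exact Subgroup.one_mem _
  obtain ⟨m, hm⟩ := hx
  simp only at hm
  by_cases hd : (p : ℤ) ∣ m
  · left
    obtain ⟨j, rfl⟩ := hd
    have hcj : Commute x (a ^ (-j)) := (hc.zpow_left (-j)).symm
    have hy : (x * a ^ (-j)) ^ p = 1 := by
      rw [hcj.mul_pow, ← hm, ← zpow_natCast (a ^ (-j)), ← zpow_mul, ← zpow_add]
      have : (p : ℤ) * j + -j * (p : ℤ) = 0 := by ring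
      rw [this, zpow_zero]
    have hc2 : Commute a (x * a ^ (-j)) := hc.mul_right ((Commute.refl a).zpow_right _)
    have h5 := mem_of_pow_eq_one hP h ha hy hc2
    have h6 : x * a ^ (-j) * a ^ j ∈ Subgroup.zpowers a :=
      Subgroup.mul_mem _ h5 (Subgroup.zpow_mem _ (Subgroup.mem_zpowers a) j)
    rw [mul_assoc, ← zpow_add, neg_add_cancel, zpow_zero, mul_one] at h6
    exact h6
  · right
    have h1 := mem_zpowers_pow_of_not_dvd hP a m hd
    rw [hm] at h1
    have h4 : Subgroup.zpowers (x ^ p) ≤ Subgroup.zpowers x := by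
      rw [Subgroup.zpowers_le]
      exact Subgroup.pow_mem _ (Subgroup.mem_zpowers x) p
    exact h4 h1

/-- A nontrivial normal subgroup of a finite `p`-group contains a central element of order `p`. -/
theorem exists_central [Finite P] (hP : IsPGroup p P) (C : Subgroup P) [C.Normal] (hC : C ≠ ⊥) :
    ∃ c ∈ C, c ≠ 1 ∧ c ^ p = 1 ∧ ∀ g, g * c = c * g := by
  have hn : Nontrivial C := (Subgroup.nontrivial_iff_ne_bot C).mpr hC
  have hcard : p ∣ Nat.card C := by
    obtain ⟨n, hn1, hn2⟩ := (IsPGroup.nontrivial_iff_card (hP.to_subgroup C)).mp hn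
    rw [hn2]
    exact dvd_pow_self p hn1.ne'
  have hfix : (1 : C) ∈ MulAction.fixedPoints (ConjAct P) C := by
    intro g
    exact smul_one g
  obtain ⟨b, hb, hb1⟩ := (hP.of_equiv ConjAct.toConjAct).exists_fixed_point_of_prime_dvd_card_of_fixed_point
    C hcard hfix
  have hbc : ∀ g : P, g * (b : P) = b * g := by
    intro g
    have h1 := hb (ConjAct.toConjAct g)
    have h2 : ((ConjAct.toConjAct g • b : C) : P) = b := by rw [h1]
    rw [ConjAct.Subgroup.val_conj_smul, ConjAct.toConjAct_smul] at h2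
    exact mul_inv_eq_iff_eq_mul.mp h2
  have hb2 : (b : P) ≠ 1 := fun h => hb1 (Subtype.ext (by rw [h]; rfl))
  obtain ⟨j, h1, h2⟩ := exists_order_p hP hb2
  refine ⟨(b : P) ^ j, Subgroup.pow_mem _ b.2 j, h2, h1, fun g => ?_⟩
  exact ((show Commute g (b : P) from hbc g).pow_right j).eq

/-- A maximal cyclic normal subgroup is self-centralising. -/
theorem exists_self_centralizing [Finite P] (hP : IsPGroup p P) (h : NR2 p P) :
    ∃ a : P, (Subgroup.zpowers a).Normal ∧ ∀ x, Commute a x → x ∈ Subgroup.zpowers a := by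
  obtain ⟨a, ha, hmax⟩ := Set.exists_max_image {a : P | (Subgroup.zpowers a).Normal} orderOf
    (Set.toFinite _) ⟨1, by
      simp only [Set.mem_ofPred_eq, Subgroup.zpowers_one_eq_bot]
      infer_instance⟩
  refine ⟨a, ha, ?_⟩
  simp only [Set.mem_ofPred_eq] at ha hmax
  by_contra hcon
  push Not at hcon
  obtain ⟨x₀, hx₀, hx₀'⟩ := hcon
  have hCn : (Subgroup.centralizer ({a} : Set P)).Normal := by
    constructor
    intro x hx g
    rw [Subgroup.mem_centralizer_singleton_iff] at hx ⊢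
    obtain ⟨m, hm⟩ := ha.conj_mem a (Subgroup.mem_zpowers a) g⁻¹
    simp only [inv_inv] at hm
    have h1 : Commute x (g⁻¹ * a * g) := by
      rw [← hm]
      exact Commute.zpow_right hx m
    have h2 := h1.eq
    calc g * x * g⁻¹ * a = g * (x * (g⁻¹ * a * g)) * g⁻¹ := by group
      _ = g * ((g⁻¹ * a * g) * x) * g⁻¹ := by rw [h2]
      _ = a * (g * x * g⁻¹) := by group
  set A := Subgroup.zpowers a with hA
  set C := Subgroup.centralizer ({a} : Set P) with hC
  have hmk : (C.map (QuotientGroup.mk' A)).Normal := hCn.map _ (QuotientGroup.mk'_surjective A)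
  have hne : C.map (QuotientGroup.mk' A) ≠ ⊥ := by
    intro hbot
    rw [Subgroup.map_eq_bot_iff, QuotientGroup.ker_mk'] at hbot
    apply hx₀'
    apply hbot
    rw [Subgroup.mem_centralizer_singleton_iff]
    exact hx₀.symm.eq
  obtain ⟨c, hc, hc1, hcp, hcc⟩ := exists_central (hP.to_quotient A) (C.map (QuotientGroup.mk' A)) hne
  obtain ⟨x, hx, rfl⟩ := hc
  simp only [QuotientGroup.mk'_apply] at hc1 hcp hcc
  have hxA : x ∉ A := fun hh => hc1 ((QuotientGroup.eq_one_iff x).mpr hh)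
  have hxp : x ^ p ∈ A := by
    rw [← QuotientGroup.eq_one_iff, QuotientGroup.mk_pow]
    exact hcp
  have hxa : Commute a x := by
    have := Subgroup.mem_centralizer_singleton_iff.mp hx
    exact (show Commute x a from this).symm
  rcases mem_or_mem hP h hxa hxp with h1 | h1
  · exact hxA h1
  have hle : A ≤ Subgroup.zpowers x := by
    rw [hA, Subgroup.zpowers_le]
    exact h1
  have hnx : (Subgroup.zpowers x).Normal := by
    have key : ∀ g : P, g * x * g⁻¹ ∈ Subgroup.zpowers x := by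
      intro g
      have h2 : (((g * x * g⁻¹) * x⁻¹ : P) : P ⧸ A) = 1 := by
        have h3 := hcc (QuotientGroup.mk g)
        rw [QuotientGroup.mk_mul, QuotientGroup.mk_mul, QuotientGroup.mk_mul, h3,
          QuotientGroup.mk_inv, QuotientGroup.mk_inv]
        group
      rw [QuotientGroup.eq_one_iff] at h2
      have h4 := Subgroup.mul_mem _ (hle h2) (Subgroup.mem_zpowers x)
      simpa using h4
    constructor
    intro y hy g
    obtain ⟨m, rfl⟩ := hy
    simp only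
    rw [← conj_zpow]
    exact Subgroup.zpow_mem _ (key g) m
  have hlt : orderOf a < orderOf x := by
    rw [← Nat.card_zpowers a, ← Nat.card_zpowers x]
    have h5 : A < Subgroup.zpowers x := lt_of_le_of_ne hle (fun heq => hxA (heq ▸ Subgroup.mem_zpowers x))
    exact Set.Finite.card_lt_card (Set.toFinite _) h5
  exact absurd (hmax x hnx) (not_le.mpr hlt)

/-- An element outside of `A = C(A)`, whose `p`-th power is in `A = ⟨a⟩`: the `p`-th powers
`(x a^i)^p` and `x^p` differ by a power of the norm of `a`. -/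
theorem conj_pow_mul (x a : P) (s : ℤ) (hs : x⁻¹ * a * x = a ^ s) (n : ℕ) (i : ℤ) :
    (x * a ^ i) ^ n = x ^ n * a ^ (i * ∑ j ∈ Finset.range n, s ^ j) := by
  have hs' : ∀ m : ℤ, x⁻¹ * a ^ m * x = a ^ (s * m) := by
    intro m
    have h1 : x⁻¹ * a ^ m * x = (x⁻¹ * a * x) ^ m := by
      have := conj_zpow (i := m) (a := x⁻¹) (b := a)
      simpa using this.symm
    rw [h1, hs, ← zpow_mul]
  induction n with
  | zero => simp
  | succ n ih =>
    rw [pow_succ, ih, Finset.sum_range_succ']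
    have h2 : x ^ n * a ^ (i * ∑ j ∈ Finset.range n, s ^ j) * (x * a ^ i) =
        x ^ n * x * (x⁻¹ * a ^ (i * ∑ j ∈ Finset.range n, s ^ j) * x) * a ^ i := by group
    rw [h2, hs', mul_assoc, ← zpow_add, ← pow_succ]
    congr 2
    simp only [pow_succ, pow_zero, ← Finset.sum_mul]
    ring

theorem exists_conj_exp {a : P} (ha : (Subgroup.zpowers a).Normal) (x : P) :
    ∃ s : ℤ, x⁻¹ * a * x = a ^ s := by
  obtain ⟨m, hm⟩ := ha.conj_mem a (Subgroup.mem_zpowers a) x⁻¹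
  simp only [inv_inv] at hm
  exact ⟨m, hm.symm⟩

theorem conj_zpow_exp {a x : P} {s : ℤ} (hs : x⁻¹ * a * x = a ^ s) (m : ℤ) :
    x⁻¹ * a ^ m * x = a ^ (s * m) := by
  have h1 : x⁻¹ * a ^ m * x = (x⁻¹ * a * x) ^ m := by
    have := conj_zpow (i := m) (a := x⁻¹) (b := a)
    simpa using this.symm
  rw [h1, hs, ← zpow_mul]

/-- iterated conjugation -/
theorem conj_pow_exp {a x : P} {s : ℤ} (hs : x⁻¹ * a * x = a ^ s) (n : ℕ) :
    (x ^ n)⁻¹ * a * x ^ n = a ^ (s ^ n) := by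
  induction n with
  | zero => simp
  | succ n ih =>
    have h2 : (x ^ (n + 1))⁻¹ * a * x ^ (n + 1) = x⁻¹ * ((x ^ n)⁻¹ * a * x ^ n) * x := by
      rw [pow_succ]; group
    rw [h2, ih, conj_zpow_exp hs, pow_succ, mul_comm]

theorem exists_mem_pow [Finite P] (hP : IsPGroup p P) (A : Subgroup P) [A.Normal]
    (hA : ∃ x, x ∉ A) : ∃ x, x ∉ A ∧ x ^ p ∈ A := by
  obtain ⟨x, hx⟩ := hA
  have h1 : (x : P ⧸ A) ≠ 1 := fun h => hx ((QuotientGroup.eq_one_iff x).mp h)
  obtain ⟨j, h2, h3⟩ := exists_order_p (hP.to_quotient A) h1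
  refine ⟨x ^ j, fun h => h3 ?_, ?_⟩
  · rw [← QuotientGroup.mk_pow]
    exact (QuotientGroup.eq_one_iff _).mpr h
  · rw [← QuotientGroup.eq_one_iff, QuotientGroup.mk_pow, QuotientGroup.mk_pow]
    exact h2

/-- `1 + s + … + s^{p-1} ≡ p (mod p²)` if `s ≡ 1 (mod p)` and `p` is odd. -/
theorem sum_pow_modEq (hp2 : p ≠ 2) {s : ℤ} (hs : (p : ℤ) ∣ s - 1) :
    ∃ w : ℤ, ∑ j ∈ Finset.range p, s ^ j = p * (1 + p * w) := by
  obtain ⟨c, hc⟩ := hs
  have h1 : ∀ j : ℕ, ∃ e : ℤ, s ^ j = 1 + p * c * j + p ^ 2 * e := by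
    intro j
    induction j with
    | zero => exact ⟨0, by simp⟩
    | succ j ih =>
      obtain ⟨e, he⟩ := ih
      refine ⟨e + p * c * e + c ^ 2 * j, ?_⟩
      have : s = 1 + p * c := by linarith
      rw [pow_succ, he]
      conv_lhs => rw [this]
      push_cast
      ring
  choose e he using h1
  have hodd : Odd p := (Fact.out : p.Prime).odd_of_ne_two hp2
  obtain ⟨l, hl⟩ := hodd
  have hg : (∑ j ∈ Finset.range p, (j : ℤ)) = p * l := by
    have h2 := Finset.sum_range_id_mul_two p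
    have h3 : (∑ j ∈ Finset.range p, j) * 2 = (p * l) * 2 := by
      rw [h2]
      have : p - 1 = 2 * l := by omega
      rw [this]; ring
    have h4 : (∑ j ∈ Finset.range p, j) = p * l := Nat.eq_of_mul_eq_mul_right two_pos h3
    have h5 := congrArg (Nat.cast : ℕ → ℤ) h4
    push_cast at h5
    exact h5
  refine ⟨c * l + ∑ j ∈ Finset.range p, e j, ?_⟩
  calc ∑ j ∈ Finset.range p, s ^ j
      = ∑ j ∈ Finset.range p, (1 + p * c * j + p ^ 2 * e j) := Finset.sum_congr rfl (fun j _ => he j)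
    _ = p + p * c * (∑ j ∈ Finset.range p, (j : ℤ)) + p ^ 2 * ∑ j ∈ Finset.range p, e j := by
        rw [Finset.sum_add_distrib, Finset.sum_add_distrib, Finset.mul_sum, Finset.mul_sum]
        simp
    _ = p * (1 + p * (c * l + ∑ j ∈ Finset.range p, e j)) := by
        rw [hg]; ring

/-- If `x ∉ A = ⟨a⟩ = C(A)` and `x^p ∈ A`, then no `x a^i` has trivial `p`-th power. -/
theorem no_trivial_pow (hP : IsPGroup p P) (h : NR2 p P) {a x : P}
    (hcen : ∀ x, Commute a x → x ∈ Subgroup.zpowers a) (hx : x ∉ Subgroup.zpowers a) {s : ℤ}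
    (hs : x⁻¹ * a * x = a ^ s) (hsp : (p : ℤ) ∣ s - 1) (i : ℤ) : (x * a ^ i) ^ p ≠ 1 := by
  intro h1
  have ha : a ≠ 1 := fun h0 => hx (hcen x (by rw [h0]; exact Commute.one_left x))
  obtain ⟨j, h2, h3⟩ := exists_order_p hP ha
  have hxc : Commute (a ^ j) x := by
    have h4 := conj_zpow_exp hs (j : ℤ)
    obtain ⟨c, hc⟩ := hsp
    have h5 : a ^ (s * (j : ℤ)) = a ^ (j : ℤ) := by
      have h6 : s * (j : ℤ) = j + (j * p) * c := by
        have : s = 1 + p * c := by linarith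
        rw [this]; ring
      rw [h6, zpow_add, zpow_mul]
      have h7 : a ^ ((j : ℤ) * (p : ℤ)) = 1 := by
        have : a ^ (j * p) = 1 := by rw [pow_mul]; exact h2
        exact_mod_cast this
      rw [h7, one_zpow, mul_one]
    rw [h5, zpow_natCast] at h4
    have h8 : x⁻¹ * (a ^ j * x) = a ^ j := by rw [← mul_assoc]; exact h4
    exact (inv_mul_eq_iff_eq_mul.mp h8)
  have hc : Commute (a ^ j) (x * a ^ i) :=
    hxc.mul_right (((Commute.refl a).pow_left j).zpow_right i)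
  have h4 := h (a ^ j) (x * a ^ i) h2 h1 hc h3
  have h5 : Subgroup.zpowers (a ^ j) ≤ Subgroup.zpowers a := by
    rw [Subgroup.zpowers_le]
    exact Subgroup.pow_mem _ (Subgroup.mem_zpowers a) j
  have h6 : x * a ^ i * a ^ (-i) ∈ Subgroup.zpowers a :=
    Subgroup.mul_mem _ (h5 h4) (Subgroup.zpow_mem _ (Subgroup.mem_zpowers a) _)
  rw [mul_assoc, ← zpow_add, add_neg_cancel, zpow_zero, mul_one] at h6
  exact hx h6

/-- common data for `x ∉ A`, `x^p ∈ A` -/
theorem data (hP : IsPGroup p P) {a x : P} (ha : (Subgroup.zpowers a).Normal)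
    (hcen : ∀ x, Commute a x → x ∈ Subgroup.zpowers a) (hx : x ∉ Subgroup.zpowers a)
    (hxp : x ^ p ∈ Subgroup.zpowers a) :
    ∃ s m' : ℤ, x⁻¹ * a * x = a ^ s ∧ (p : ℤ) ∣ s - 1 ∧ x ^ p = a ^ ((p : ℤ) * m') ∧ a ≠ 1 := by
  obtain ⟨s, hs⟩ := exists_conj_exp ha x
  have ha1 : a ≠ 1 := fun h0 => hx (hcen x (by rw [h0]; exact Commute.one_left x))
  obtain ⟨m, hm⟩ := hxp
  simp only at hm
  have hpm : (p : ℤ) ∣ m := by
    by_contra hd
    have h1 := mem_zpowers_pow_of_not_dvd hP a m hd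
    rw [hm] at h1
    obtain ⟨u, hu⟩ := h1
    simp only at hu
    apply hx
    apply hcen
    rw [← hu]
    exact ((Commute.refl x).pow_left p).zpow_left u
  obtain ⟨m', rfl⟩ := hpm
  refine ⟨s, m', hs, ?_, hm.symm, ha1⟩
  -- `s^p ≡ 1`
  have h1 : a ^ (s ^ p) = a := by
    rw [← conj_pow_exp hs p, ← hm]
    have : Commute (a ^ ((p : ℤ) * m')) a := (Commute.refl a).zpow_left _
    rw [mul_assoc, ← this.eq, ← mul_assoc, inv_mul_cancel, one_mul]
  have h2 : a ^ (s ^ p - 1) = 1 := by rw [zpow_sub, h1, zpow_one, mul_inv_cancel]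
  have h3 : (orderOf a : ℤ) ∣ s ^ p - 1 := orderOf_dvd_iff_zpow_eq_one.mpr h2
  obtain ⟨k, hk⟩ := IsPGroup.iff_orderOf.mp hP a
  have hk0 : k ≠ 0 := by
    rintro rfl
    rw [pow_zero, orderOf_eq_one_iff] at hk
    exact ha1 hk
  have h4 : (p : ℤ) ∣ orderOf a := by
    rw [hk]; push_cast
    exact dvd_pow_self _ hk0
  have h5 : (p : ℤ) ∣ s ^ p - 1 := h4.trans h3
  have h6 : (p : ℤ) ∣ s ^ p - s := by
    have : ((s ^ p - s : ℤ) : ZMod p) = 0 := by
      push_cast
      rw [ZMod.pow_card, sub_self]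
    exact (ZMod.intCast_zmod_eq_zero_iff_dvd _ p).mp this
  have h7 : s - 1 = (s ^ p - 1) - (s ^ p - s) := by ring
  rw [h7]
  exact dvd_sub h5 h6

/-- **G6, odd case.** -/
theorem isCyclic_of_odd [Finite P] (hP : IsPGroup p P) (h : NR2 p P) (hp2 : p ≠ 2) :
    IsCyclic P := by
  obtain ⟨a, ha, hcen⟩ := exists_self_centralizing hP h
  by_cases hall : ∀ x, x ∈ Subgroup.zpowers a
  · exact ⟨⟨a, hall⟩⟩
  exfalso
  push Not at hall
  obtain ⟨x, hx, hxp⟩ := exists_mem_pow hP (Subgroup.zpowers a) hall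
  obtain ⟨s, m', hs, hsp, hm, ha1⟩ := data hP ha hcen hx hxp
  obtain ⟨w, hw⟩ := sum_pow_modEq hp2 hsp
  obtain ⟨k, hk⟩ := IsPGroup.iff_orderOf.mp hP a
  have hcop : IsCoprime (1 + (p : ℤ) * w) ((p : ℤ) ^ k) := by
    apply IsCoprime.pow_right
    exact ⟨1, -w, by ring⟩
  obtain ⟨u, v, huv⟩ := hcop
  apply no_trivial_pow hP h hcen hx hs hsp (-(m' * u))
  rw [conj_pow_mul x a s hs, hw, hm, ← zpow_add]
  have h1 : (p : ℤ) * m' + -(m' * u) * (p * (1 + p * w)) = (p : ℤ) ^ k * (p * m' * v) := by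
    have : u * (1 + p * w) = 1 - v * (p : ℤ) ^ k := by linarith
    calc (p : ℤ) * m' + -(m' * u) * (p * (1 + p * w))
        = p * m' - p * m' * (u * (1 + p * w)) := by ring
      _ = (p : ℤ) ^ k * (p * m' * v) := by rw [this]; ring
  have h2 : a ^ ((p : ℤ) ^ k) = 1 := by
    have : a ^ (p ^ k) = 1 := by rw [← hk]; exact pow_orderOf_eq_one a
    exact_mod_cast this
  rw [h1, zpow_mul, h2, one_zpow]

end basic

section two

/-- for `p = 2`: `x ∉ A`, `x² ∈ A` inverts `a` -/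
theorem inverts (hP : IsPGroup 2 P) (h : NR2 2 P) {a x : P} (ha : (Subgroup.zpowers a).Normal)
    (hcen : ∀ x, Commute a x → x ∈ Subgroup.zpowers a) (hx : x ∉ Subgroup.zpowers a)
    (hxp : x ^ 2 ∈ Subgroup.zpowers a) : x⁻¹ * a * x = a⁻¹ := by
  have : Fact (Nat.Prime 2) := ⟨Nat.prime_two⟩
  obtain ⟨s, m', hs, hsp, hm, ha1⟩ := data (p := 2) hP ha hcen hx hxp
  obtain ⟨k, hk⟩ := IsPGroup.iff_orderOf.mp hP a
  have hno : ∀ i : ℤ, ¬ ((2 : ℤ) ^ k ∣ 2 * m' + i * (1 + s)) := by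
    intro i hi
    apply no_trivial_pow hP h hcen hx hs hsp i
    rw [conj_pow_mul x a s hs, hm, ← zpow_add]
    have h1 : ((2 : ℕ) : ℤ) * m' + i * ∑ j ∈ Finset.range 2, s ^ j = 2 * m' + i * (1 + s) := by
      simp [Finset.sum_range_succ]
    rw [h1]
    apply orderOf_dvd_iff_zpow_eq_one.mp
    rw [hk]; push_cast; exact hi
  -- `2 m' (s - 1) ≡ 0`
  have hfix : (2 : ℤ) ^ k ∣ 2 * m' * (s - 1) := by
    have h1 : x⁻¹ * a ^ (((2 : ℕ) : ℤ) * m') * x = a ^ (((2 : ℕ) : ℤ) * m') := by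
      rw [← hm]
      group
    rw [conj_zpow_exp hs] at h1
    have h2 : a ^ (s * (((2 : ℕ) : ℤ) * m') - (((2 : ℕ) : ℤ) * m')) = 1 := by
      rw [zpow_sub, h1, mul_inv_cancel]
    have h3 := orderOf_dvd_iff_zpow_eq_one.mpr h2
    rw [hk] at h3
    push_cast at h3
    have h4 : s * (2 * m') - 2 * m' = 2 * m' * (s - 1) := by ring
    rwa [h4] at h3
  -- the gcd of `1 + s` and `2^k` is `2^e`
  obtain ⟨e, he, hge⟩ : ∃ e ≤ k, Int.gcd (1 + s) ((2 : ℤ) ^ k) = 2 ^ e := by
    have h1 : Int.gcd (1 + s) ((2 : ℤ) ^ k) ∣ 2 ^ k := by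
      have h2 := Int.gcd_dvd_right (1 + s) ((2 : ℤ) ^ k)
      exact_mod_cast h2
    obtain ⟨e, he, h3⟩ := (Nat.dvd_prime_pow Nat.prime_two).mp h1
    exact ⟨e, he, h3⟩
  have hnd : ¬ ((2 : ℤ) ^ e ∣ 2 * m') := by
    rintro ⟨r, hr⟩
    have hb := Int.gcd_eq_gcd_ab (1 + s) ((2 : ℤ) ^ k)
    rw [hge] at hb
    push_cast at hb
    apply hno (-(r * Int.gcdA (1 + s) ((2 : ℤ) ^ k)))
    refine ⟨r * Int.gcdB (1 + s) ((2 : ℤ) ^ k), ?_⟩
    rw [hr, hb]
    ring
  have he2 : 2 ≤ e := by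
    by_contra hcon
    apply hnd
    have : e = 0 ∨ e = 1 := by omega
    rcases this with rfl | rfl
    · simp
    · simp
  have hdiv : (2 : ℤ) ^ e ∣ 1 + s := by
    have h2 := Int.gcd_dvd_left (1 + s) ((2 : ℤ) ^ k)
    rw [hge] at h2
    exact_mod_cast h2
  have h4 : (4 : ℤ) ∣ 1 + s := by
    refine dvd_trans ?_ hdiv
    have : (4 : ℤ) = 2 ^ 2 := by norm_num
    rw [this]
    exact pow_dvd_pow _ he2
  have h5 : (2 : ℤ) ^ k ∣ 2 * (2 * m') := by
    obtain ⟨c, hc⟩ := h4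
    have h6 : 2 * m' * (s - 1) = (2 * (2 * m')) * (2 * c - 1) := by
      have : s = 4 * c - 1 := by linarith
      rw [this]; ring
    rw [h6] at hfix
    have hcop : IsCoprime ((2 : ℤ) ^ k) (2 * c - 1) := by
      apply IsCoprime.pow_left
      exact ⟨c, -1, by ring⟩
    exact hcop.dvd_of_dvd_mul_right hfix
  have hek : e = k := by
    by_contra hne
    have hlt : e + 1 ≤ k := by omega
    apply hnd
    have h7 : (2 : ℤ) ^ (e + 1) ∣ 2 * (2 * m') := (pow_dvd_pow _ hlt).trans h5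
    rw [pow_succ'] at h7
    exact (mul_dvd_mul_iff_left (by norm_num : (2 : ℤ) ≠ 0)).mp h7
  have h8 : a ^ (1 + s) = 1 := by
    apply orderOf_dvd_iff_zpow_eq_one.mp
    rw [hk]; push_cast; rw [← hek]; exact hdiv
  rw [hs]
  rw [zpow_add, zpow_one] at h8
  exact (eq_inv_of_mul_eq_one_right h8)

/-- for `p = 2`: every element outside of `A` inverts `a` -/
theorem inverts_all [Finite P] (hP : IsPGroup 2 P) (h : NR2 2 P) {a x : P}
    (ha : (Subgroup.zpowers a).Normal)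
    (hcen : ∀ x, Commute a x → x ∈ Subgroup.zpowers a) (hx : x ∉ Subgroup.zpowers a) :
    x⁻¹ * a * x = a⁻¹ := by
  have : Fact (Nat.Prime 2) := ⟨Nat.prime_two⟩
  apply inverts hP h ha hcen hx
  by_contra hx2
  -- some power `v` of `x` has `v² ∉ A`, `v⁴ ∈ A`
  obtain ⟨m, hm⟩ := IsPGroup.iff_orderOf.mp (hP.to_quotient (Subgroup.zpowers a)) (x : P ⧸ Subgroup.zpowers a)
  have hm2 : 2 ≤ m := by
    by_contra hcon
    apply hx2
    rw [← QuotientGroup.eq_one_iff, QuotientGroup.mk_pow]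
    apply orderOf_dvd_iff_pow_eq_one.mp
    rw [hm]
    have : (2 : ℕ) = 2 ^ 1 := by norm_num
    conv_rhs => rw [this]
    exact pow_dvd_pow _ (by omega)
  obtain ⟨l, rfl⟩ := Nat.exists_eq_add_of_le hm2
  set v := x ^ (2 ^ l) with hv
  have hv2 : v ^ 2 ∉ Subgroup.zpowers a := by
    intro hh
    rw [← QuotientGroup.eq_one_iff, hv, ← pow_mul, QuotientGroup.mk_pow, ← orderOf_dvd_iff_pow_eq_one,
      hm, ← pow_succ] at hh
    have h2 := (Nat.pow_dvd_pow_iff_le_right (by norm_num : 1 < 2)).mp hh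
    omega
  have hv4 : (v ^ 2) ^ 2 ∈ Subgroup.zpowers a := by
    rw [← QuotientGroup.eq_one_iff, hv, ← pow_mul, ← pow_mul, QuotientGroup.mk_pow,
      ← orderOf_dvd_iff_pow_eq_one, hm]
    apply dvd_of_eq
    rw [pow_add]
    ring
  have h1 := inverts hP h ha hcen hv2 hv4
  obtain ⟨t, ht⟩ := exists_conj_exp ha v
  have h2 := conj_pow_exp ht 2
  rw [h1] at h2
  have h3 : a ^ (t ^ 2 + 1) = 1 := by
    rw [zpow_add, ← h2, zpow_one, inv_mul_cancel]
  obtain ⟨k, hk⟩ := IsPGroup.iff_orderOf.mp hP a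
  have hk2 : 2 ≤ k := by
    by_contra hcon
    apply hv2
    apply hcen
    have h4 : a ^ 2 = 1 := by
      apply orderOf_dvd_iff_pow_eq_one.mp
      rw [hk]
      have : (2 : ℕ) = 2 ^ 1 := by norm_num
      conv_rhs => rw [this]
      exact pow_dvd_pow _ (by omega)
    have h5 : a⁻¹ = a := by
      rw [inv_eq_iff_mul_eq_one, ← pow_two]
      exact h4
    rw [h5] at h1
    rw [mul_assoc] at h1
    exact inv_mul_eq_iff_eq_mul.mp h1
  have h6 : (orderOf a : ℤ) ∣ t ^ 2 + 1 := orderOf_dvd_iff_zpow_eq_one.mpr h3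
  rw [hk] at h6
  have h7 : (4 : ℤ) ∣ t ^ 2 + 1 := by
    refine dvd_trans ?_ h6
    push_cast
    have : (4 : ℤ) = 2 ^ 2 := by norm_num
    rw [this]
    exact pow_dvd_pow _ hk2
  rcases Int.even_or_odd' t with ⟨r, rfl | rfl⟩
  · ring_nf at h7
    omega
  · ring_nf at h7
    omega

/-- **G6, even case.** -/
theorem isCyclic_of_index [Finite P] (hP : IsPGroup 2 P) (h : NR2 2 P) (N : Subgroup P)
    (hN : N.Normal) (hi : 4 ≤ N.index) : IsCyclic N := by
  have : Fact (Nat.Prime 2) := ⟨Nat.prime_two⟩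
  obtain ⟨a, ha, hcen⟩ := exists_self_centralizing hP h
  have hle : N ≤ Subgroup.zpowers a := by
    intro y hy
    by_contra hyA
    have hinv := inverts_all hP h ha hcen hyA
    -- every element of `P ⧸ N` is a power of the image of `a`
    have hgen : ∀ g : P, ∃ m : ℤ, (g : P ⧸ N) = (a : P ⧸ N) ^ m := by
      intro g
      by_cases hg : g ∈ Subgroup.zpowers a
      · obtain ⟨m, rfl⟩ := hg
        exact ⟨m, QuotientGroup.mk_zpow N a m⟩
      · have hg2 := inverts_all hP h ha hcen hg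
        have h1 : g * y ∈ Subgroup.zpowers a := by
          apply hcen
          have h2 : (g * y)⁻¹ * a * (g * y) = a := by
            calc (g * y)⁻¹ * a * (g * y) = y⁻¹ * (g⁻¹ * a * g) * y := by group
              _ = y⁻¹ * a⁻¹ * y := by rw [hg2]
              _ = (y⁻¹ * a * y)⁻¹ := by group
              _ = a := by rw [hinv, inv_inv]
          rw [mul_assoc] at h2
          exact inv_mul_eq_iff_eq_mul.mp h2
        obtain ⟨m, hm⟩ := h1
        refine ⟨m, ?_⟩
        rw [← QuotientGroup.mk_zpow]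
        simp only at hm
        rw [hm, QuotientGroup.mk_mul, (QuotientGroup.eq_one_iff y).mpr hy, mul_one]
    have hsq : (a : P ⧸ N) ^ 2 = 1 := by
      have h3 : a⁻¹ * y⁻¹ * a * y = (a ^ 2)⁻¹ := by
        calc a⁻¹ * y⁻¹ * a * y = a⁻¹ * (y⁻¹ * a * y) := by group
          _ = (a ^ 2)⁻¹ := by rw [hinv]; group
      have h4 : a⁻¹ * y⁻¹ * a * y ∈ N := by
        have h5 := hN.conj_mem y⁻¹ (N.inv_mem hy) a⁻¹
        rw [inv_inv] at h5
        exact N.mul_mem h5 hy
      rw [h3] at h4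
      rw [← QuotientGroup.mk_pow, QuotientGroup.eq_one_iff]
      exact (N.inv_mem_iff).mp h4
    have htop : Subgroup.zpowers (a : P ⧸ N) = ⊤ := by
      rw [eq_top_iff]
      intro q _
      obtain ⟨g, rfl⟩ := QuotientGroup.mk_surjective q
      obtain ⟨m, hm⟩ := hgen g
      exact ⟨m, hm.symm⟩
    have hcard : N.index = orderOf (a : P ⧸ N) := by
      rw [Subgroup.index, ← Nat.card_zpowers, htop]
      exact (Nat.card_congr Subgroup.topEquiv.toEquiv).symm
    have h6 : orderOf (a : P ⧸ N) ∣ 2 := orderOf_dvd_of_pow_eq_one hsq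
    have h7 := Nat.le_of_dvd (by norm_num) h6
    omega
  exact isCyclic_of_injective (Subgroup.inclusion hle) (Subgroup.inclusion_injective hle)

end two

end Vale.Agent.P260.H704
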