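import Mathlib

/-!
P260, block G7: the end of the proof.
-/

namespace Vale.Agent.P260.H704

/-- Finite case: `F ≤ E` in a finite group, `F` normal, all `q`-subgroups of `E` cyclic for odd
`q`, and all normal subgroups of index `≥ 4` of the `2`-subgroups of `E` cyclic. -/
theorem isZGroup_of {H : Type} [Group H] [Finite H] (E F : Subgroup H) (hFE : F ≤ E)
    (hFn : F.Normal)
    (h : ∀ (q : ℕ) [Fact q.Prime] (S : Subgroup H), S ≤ E → IsPGroup q S →
      (q ≠ 2 → IsCyclic S) ∧ (q = 2 → ∀ Q : Subgroup S, Q.Normal → 4 ≤ Q.index → IsCyclic Q))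
    (hc : ¬ 4 ∣ Nat.card F ∨ 4 ∣ F.relIndex E) : IsZGroup F := by
  refine ⟨fun q hq T => ?_⟩
  have : Fact q.Prime := ⟨hq⟩
  set S₀ : Subgroup H := (T : Subgroup F).map F.subtype with hS₀
  have hS₀F : S₀ ≤ F := Subgroup.map_subtype_le _
  have hback : IsCyclic S₀ → IsCyclic T := by
    intro hcyc
    exact isCyclic_of_injective
      ((T : Subgroup F).equivMapOfInjective F.subtype F.subtype_injective).toMonoidHom
      ((T : Subgroup F).equivMapOfInjective F.subtype F.subtype_injective).injective
  have hpS₀ : IsPGroup q S₀ := T.isPGroup'.map F.subtype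
  by_cases hq2 : q = 2
  · subst hq2
    have hFpos : Nat.card F ≠ 0 := Nat.card_pos.ne'
    rcases hc with hc | hc
    · have hcard := T.card_eq_multiplicity
      have h1 : (Nat.card F).factorization 2 ≤ 1 := by
        by_contra hcon
        apply hc
        have h2 : 2 ^ 2 ∣ Nat.card F :=
          (Nat.prime_two.pow_dvd_iff_le_factorization hFpos).mpr (by omega)
        simpa using h2
      apply isCyclic_of_card_dvd_prime (p := 2)
      rw [hcard]
      calc 2 ^ (Nat.card F).factorization 2 ∣ 2 ^ 1 := pow_dvd_pow _ h1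
        _ = 2 := by norm_num
    · apply hback
      set TE : Subgroup E := (T : Subgroup F).map (Subgroup.inclusion hFE) with hTE
      have hpTE : IsPGroup 2 TE := T.isPGroup'.map _
      obtain ⟨S', hS'⟩ := hpTE.exists_le_sylow
      set S : Subgroup H := (S' : Subgroup E).map E.subtype with hS
      have hSE : S ≤ E := Subgroup.map_subtype_le _
      have hpS : IsPGroup 2 S := S'.isPGroup'.map _
      have hSS : S₀ ≤ S := by
        intro x hx
        obtain ⟨t, ht, rfl⟩ := hx
        exact ⟨Subgroup.inclusion hFE t, hS' ⟨t, ht, rfl⟩, rfl⟩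
      have hQn : (F.subgroupOf S).Normal := inferInstance
      have hcardS : Nat.card S = 2 ^ (Nat.card E).factorization 2 := by
        rw [← S'.card_eq_multiplicity]
        exact (Nat.card_congr ((S' : Subgroup E).equivMapOfInjective E.subtype
          E.subtype_injective).toEquiv).symm
      have hmul : Nat.card (F.subgroupOf S) * (F.subgroupOf S).index = Nat.card S :=
        Subgroup.card_mul_index _
      have hcardQ : Nat.card (F.subgroupOf S) ∣ Nat.card F := by
        have h1 : Nat.card (F.subgroupOf S) = Nat.card (F ⊓ S : Subgroup H) := by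
          rw [← Subgroup.subgroupOf_map_subtype F S]
          exact Nat.card_congr ((F.subgroupOf S).equivMapOfInjective S.subtype
            S.subtype_injective).toEquiv
        rw [h1]
        exact Subgroup.card_dvd_of_le inf_le_left
      have hrel : F.relIndex E * Nat.card F = Nat.card E := by
        rw [mul_comm, Subgroup.relIndex]
        have h1 := Subgroup.card_mul_index (F.subgroupOf E)
        have h2 : Nat.card (F.subgroupOf E) = Nat.card F :=
          Nat.card_congr (Subgroup.subgroupOfEquivOfLe hFE).toEquiv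
        rw [h2] at h1
        exact h1
      have hrel0 : F.relIndex E ≠ 0 := by
        intro h0
        rw [h0, zero_mul] at hrel
        exact (Nat.card_pos (α := E)).ne' hrel.symm
      have hfac : (Nat.card E).factorization 2 =
          (F.relIndex E).factorization 2 + (Nat.card F).factorization 2 := by
        rw [← hrel, Nat.factorization_mul hrel0 hFpos]
        rfl
      have hfac2 : 2 ≤ (F.relIndex E).factorization 2 :=
        (Nat.prime_two.pow_dvd_iff_le_factorization hrel0).mp (by simpa using hc)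
      obtain ⟨b, hb⟩ := (IsPGroup.iff_card.mp (hpS.to_subgroup (F.subgroupOf S)))
      have hb2 : b ≤ (Nat.card F).factorization 2 := by
        rw [hb] at hcardQ
        exact (Nat.prime_two.pow_dvd_iff_le_factorization hFpos).mp hcardQ
      have hidx : 4 ≤ (F.subgroupOf S).index := by
        rw [hb, hcardS, hfac] at hmul
        have h1 : 2 ^ b * 2 ^ 2 ≤ 2 ^ b * (F.subgroupOf S).index := by
          rw [hmul, ← pow_add]
          exact Nat.pow_le_pow_right (by norm_num) (by omega)
        have h2 := Nat.le_of_mul_le_mul_left h1 (by positivity)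
        simpa using h2
      have hcyc := (h 2 S hSE hpS).2 rfl (F.subgroupOf S) hQn hidx
      have hcyc2 : IsCyclic (F ⊓ S : Subgroup H) := by
        rw [← Subgroup.subgroupOf_map_subtype F S]
        exact isCyclic_of_surjective
          ((F.subgroupOf S).equivMapOfInjective S.subtype S.subtype_injective).toMonoidHom
          ((F.subgroupOf S).equivMapOfInjective S.subtype S.subtype_injective).surjective
      exact Subgroup.isCyclic_of_le (le_inf hS₀F hSS)
  · exact hback ((h q S₀ (hS₀F.trans hFE) hpS₀).1 hq2)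

/-- The second derived subgroup of a finite Z-group is trivial. -/
theorem derivedSeries_two_eq_bot (F : Type*) [Group F] [Finite F] [IsZGroup F] :
    derivedSeries F 2 = ⊥ := by
  have hcyc : IsCyclic (commutator F) := IsZGroup.isCyclic_commutator F
  rw [show (2 : ℕ) = 1 + 1 from rfl, derivedSeries_succ, derivedSeries_one,
    Subgroup.commutator_eq_bot_iff_le_centralizer]
  intro x hx
  rw [Subgroup.mem_centralizer_iff]
  intro y hy
  obtain ⟨g, hg⟩ := hcyc.exists_generator
  obtain ⟨i, hi⟩ := hg ⟨y, hy⟩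
  obtain ⟨j, hj⟩ := hg ⟨x, hx⟩
  have h1 : (⟨y, hy⟩ : commutator F) * ⟨x, hx⟩ = ⟨x, hx⟩ * ⟨y, hy⟩ := by
    rw [← hi, ← hj]
    exact ((Commute.refl g).zpow_zpow i j).eq
  exact congrArg Subtype.val h1

/-- the order of the image of `K` in `G ⧸ M` -/
theorem card_map_mk {G : Type} [Group G] (M K : Subgroup G) [M.Normal] :
    Nat.card (K.map (QuotientGroup.mk' M)) = M.relIndex K := by
  rw [← Subgroup.relIndex_ker, QuotientGroup.ker_mk']

/-- **G7.** -/
theorem g7 (G : Type) [Group G]
    (hres : ∀ g : G, g ≠ 1 → ∃ N : Subgroup G, N.Normal ∧ N.FiniteIndex ∧ g ∉ N)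
    (N₀ : Subgroup G) (hN₀ : N₀.Normal)
    (h : ∀ (q : ℕ) [Fact q.Prime] (M : Subgroup G) [M.Normal], M.FiniteIndex →
      ∀ S : Subgroup (G ⧸ M), S ≤ N₀.map (QuotientGroup.mk' M) → IsPGroup q S →
        (q ≠ 2 → IsCyclic S) ∧
          (q = 2 → ∀ Q : Subgroup S, Q.Normal → 4 ≤ Q.index → IsCyclic Q)) :
    ∃ M₁ : Subgroup G, M₁.FiniteIndex ∧ Group.IsSolvable (N₀ ⊓ M₁ : Subgroup G) := by
  -- the choice of `M₁`
  obtain ⟨M₁, hM₁n, hM₁f, hM₁⟩ : ∃ M₁ : Subgroup G, M₁.Normal ∧ M₁.FiniteIndex ∧
      ((∀ (M : Subgroup G) [M.Normal], M.FiniteIndex → M ≤ M₁ →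
        ¬ 4 ∣ Nat.card ((N₀ ⊓ M₁).map (QuotientGroup.mk' M))) ∨
      4 ∣ M₁.relIndex N₀) := by
    by_cases hex : ∃ M₁ : Subgroup G, M₁.Normal ∧ M₁.FiniteIndex ∧ 4 ∣ M₁.relIndex N₀
    · obtain ⟨M₁, h1, h2, h3⟩ := hex
      exact ⟨M₁, h1, h2, Or.inr h3⟩
    · push Not at hex
      refine ⟨⊤, inferInstance, inferInstance, Or.inl ?_⟩
      intro M hM hMf _
      rw [inf_top_eq, card_map_mk]
      exact hex M hM hMf
  refine ⟨M₁, hM₁f, ?_⟩
  set N₁ := N₀ ⊓ M₁ with hN₁
  have hN₁n : N₁.Normal := inferInstance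
  -- all images of `N₁` are Z-groups
  have hz : ∀ (M : Subgroup G) [M.Normal], M.FiniteIndex → M ≤ M₁ →
      IsZGroup (N₁.map (QuotientGroup.mk' M)) := by
    intro M hM hMf hle
    have hfin : Finite (G ⧸ M) := inferInstance
    refine isZGroup_of (N₀.map (QuotientGroup.mk' M)) (N₁.map (QuotientGroup.mk' M))
      (Subgroup.map_mono inf_le_left) (hN₁n.map _ (QuotientGroup.mk'_surjective M))
      (fun q _ S hS hp => h q M hMf S hS hp) ?_
    rcases hM₁ with hM₁ | hM₁
    · exact Or.inl (hM₁ M hMf hle)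
    · right
      -- `[N₀M : N₁M] = [N₀ : N₁]`
      have hFE : N₁.map (QuotientGroup.mk' M) ≤ N₀.map (QuotientGroup.mk' M) :=
        Subgroup.map_mono inf_le_left
      have h1 : (N₁.map (QuotientGroup.mk' M)).relIndex (N₀.map (QuotientGroup.mk' M)) *
          Nat.card (N₁.map (QuotientGroup.mk' M)) = Nat.card (N₀.map (QuotientGroup.mk' M)) := by
        rw [mul_comm, Subgroup.relIndex]
        have h1 := Subgroup.card_mul_index
          ((N₁.map (QuotientGroup.mk' M)).subgroupOf (N₀.map (QuotientGroup.mk' M)))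
        have h2 : Nat.card ((N₁.map (QuotientGroup.mk' M)).subgroupOf
            (N₀.map (QuotientGroup.mk' M))) = Nat.card (N₁.map (QuotientGroup.mk' M)) :=
          Nat.card_congr (Subgroup.subgroupOfEquivOfLe hFE).toEquiv
        rw [h2] at h1
        exact h1
      rw [card_map_mk, card_map_mk] at h1
      have h2 : M.relIndex N₁ = (M ⊓ N₀).relIndex N₁ := by
        rw [← Subgroup.inf_relIndex_right M N₁, ← Subgroup.inf_relIndex_right (M ⊓ N₀) N₁]
        congr 1
        rw [hN₁]
        ext x
        simp only [Subgroup.mem_inf]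
        constructor
        · rintro ⟨a, b, c⟩; exact ⟨⟨a, b⟩, b, c⟩
        · rintro ⟨⟨a, _⟩, b, c⟩; exact ⟨a, b, c⟩
      have h3 : (M ⊓ N₀).relIndex N₁ * N₁.relIndex N₀ = (M ⊓ N₀).relIndex N₀ := by
        apply Subgroup.relIndex_mul_relIndex
        · exact le_inf inf_le_right (inf_le_left.trans hle)
        · exact inf_le_left
      have h4 : (M ⊓ N₀).relIndex N₀ = M.relIndex N₀ := Subgroup.inf_relIndex_right M N₀
      have h5 : N₁.relIndex N₀ = M₁.relIndex N₀ := by
        rw [hN₁, inf_comm]
        exact Subgroup.inf_relIndex_right M₁ N₀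
      rw [h4, ← h2, h5] at h3
      have h6 : M.relIndex N₁ ≠ 0 := by
        rw [← card_map_mk]
        exact Nat.card_pos.ne'
      rw [← h3, mul_comm] at h1
      rw [Nat.eq_of_mul_eq_mul_left (Nat.pos_of_ne_zero h6) h1]
      exact hM₁
  -- the second derived subgroup of `N₁` is trivial
  refine (Group.isSolvable_def _).mpr ⟨2, ?_⟩
  rw [eq_bot_iff]
  intro x hx
  rw [Subgroup.mem_bot]
  by_contra hx1
  have hx2 : (x : G) ≠ 1 := fun hh => hx1 (Subtype.ext hh)
  obtain ⟨N, hNn, hNf, hxN⟩ := hres x hx2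
  have hMn : (N ⊓ M₁).Normal := inferInstance
  have hMf : (N ⊓ M₁).FiniteIndex := inferInstance
  have hzz := hz (N ⊓ M₁) hMf inf_le_right
  have hfin : Finite (G ⧸ (N ⊓ M₁)) := inferInstance
  have h1 := derivedSeries_two_eq_bot (N₁.map (QuotientGroup.mk' (N ⊓ M₁)))
  have h2 := map_derivedSeries_le_derivedSeries ((QuotientGroup.mk' (N ⊓ M₁)).subgroupMap N₁) 2
    (Subgroup.mem_map_of_mem _ hx)
  rw [h1, Subgroup.mem_bot] at h2
  have h3 := congrArg Subtype.val h2
  simp only [MonoidHom.subgroupMap_apply_coe, Subgroup.coe_one, QuotientGroup.mk'_apply,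
    QuotientGroup.eq_one_iff] at h3
  exact hxN (Subgroup.mem_inf.mp h3).1

end Vale.Agent.P260.H704
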