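import Vale.Agent.P260.Spec4
import Vale.Agent.P260.H704.G6
import Vale.Agent.P260.H704.G7

/-!
P260: blocks G6 and G7 in the form of the Spec.
-/

namespace Vale.Agent.P260

theorem blockG6 : BlockG6 := by
  intro q _ P _ _ hP h
  refine ⟨fun hq => H704.isCyclic_of_odd hP h hq, ?_⟩
  rintro rfl Q hQ hi
  exact H704.isCyclic_of_index hP h Q hQ hi

theorem blockG7 : BlockG7 := fun G _ hres N₀ hN₀ h => H704.g7 G hres N₀ hN₀ h

end Vale.Agent.P260
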